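import Vale.Agent.P029.MathlibUsed

/-!
# P029: the Deligne-Drinfeld conjecture, definitions for the statement
-/

noncomputable section

namespace Vale.Agent.P029.Stmt

/-- `IsMon w n a`: `a` is an iterated bracket of letters of total weight `n`, where the letter `i`
has weight `w i`. -/
inductive IsMon {X : Type} (w : X → ℕ) : ℕ → FreeLieAlgebra ℚ X → Prop
  | of (i : X) : IsMon w (w i) (FreeLieAlgebra.of ℚ i)
  | lie {m n : ℕ} {a b : FreeLieAlgebra ℚ X} (ha : IsMon w m a) (hb : IsMon w n b) :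
      IsMon w (m + n) ⁅a, b⁆

/-- The weight `n` part of the free Lie algebra over `ℚ` on the letters `X` with weights `w`: the
span of the iterated brackets of letters of total weight `n`. -/
def wtPart {X : Type} (w : X → ℕ) (n : ℕ) : Submodule ℚ (FreeLieAlgebra ℚ X) :=
  Submodule.span ℚ {a | IsMon w n a}

/-- The free Lie algebra over `ℚ` on two letters. -/
abbrev L : Type := FreeLieAlgebra ℚ (Fin 2)

/-- The letter `x`. -/
def x : L := FreeLieAlgebra.of ℚ 0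

/-- The letter `y`. -/
def y : L := FreeLieAlgebra.of ℚ 1

/-- The free Lie algebra over `ℚ` on the letters `t i j`, `i, j ∈ {0, 1, 2, 3}`. -/
abbrev FT : Type := FreeLieAlgebra ℚ (Fin 4 × Fin 4)

/-- The letter `t i j`. -/
def tt (i j : Fin 4) : FT := FreeLieAlgebra.of ℚ (i, j)

/-- The defining relators of `𝔱₄`. -/
inductive T4Rel : FT → Prop
  | diag (i : Fin 4) : T4Rel (tt i i)
  | symm (i j : Fin 4) : T4Rel (tt i j - tt j i)
  | comm (i j k l : Fin 4) (hij : i ≠ j) (hik : i ≠ k) (hil : i ≠ l) (hjk : j ≠ k) (hjl : j ≠ l)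
      (hkl : k ≠ l) : T4Rel ⁅tt i j, tt k l⁆
  | tri (i j k : Fin 4) (hij : i ≠ j) (hik : i ≠ k) (hjk : j ≠ k) :
      T4Rel ⁅tt i j, tt i k + tt j k⁆

/-- The ideal generated by the relators. -/
def T4Ideal : LieIdeal ℚ FT := LieSubmodule.lieSpan ℚ FT {r | T4Rel r}

/-- The Lie algebra `𝔱₄`. -/
abbrev T4 : Type := FT ⧸ T4Ideal

/-- The generator `t i j` of `𝔱₄`. -/
def t (i j : Fin 4) : T4 := LieSubmodule.Quotient.mk (tt i j)

/-- The generator `t₁₂` of `𝔱₄`. -/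
def t12 : T4 := t 0 1
/-- The generator `t₁₃` of `𝔱₄`. -/
def t13 : T4 := t 0 2
/-- The generator `t₂₃` of `𝔱₄`. -/
def t23 : T4 := t 1 2
/-- The generator `t₂₄` of `𝔱₄`. -/
def t24 : T4 := t 1 3
/-- The generator `t₃₄` of `𝔱₄`. -/
def t34 : T4 := t 2 3

/-- `sL ψ a b = ψ(a, b)` for `a, b` in the free Lie algebra `L`. -/
def sL (ψ a b : L) : L := FreeLieAlgebra.lift ℚ ![a, b] ψ

/-- `sT ψ a b = ψ(a, b)` for `a, b` in `𝔱₄`. -/
def sT (ψ : L) (a b : T4) : T4 := FreeLieAlgebra.lift ℚ ![a, b] ψ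

/-- The defining equations of `W`: antisymmetry, hexagon and pentagon. -/
def IsW (ψ : L) : Prop :=
  sL ψ x y + sL ψ y x = 0 ∧ sL ψ x y + sL ψ y (-x - y) + sL ψ (-x - y) x = 0 ∧
    sT ψ t12 (t23 + t24) + sT ψ (t13 + t23) t34 =
      sT ψ t23 t34 + sT ψ (t12 + t13) (t24 + t34) + sT ψ t12 t23

/-- The elements of `W` of weight `n`. -/
def IsWn (n : ℕ) (ψ : L) : Prop := IsW ψ ∧ ψ ∈ wtPart (fun _ => 1) n

/-- `D` is the derivation `D_ψ` of `L`: `D x = 0`, `D y = [y, ψ]`. -/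
def IsD (ψ : L) (D : L → L) : Prop :=
  (∀ a b, D (a + b) = D a + D b) ∧ (∀ (c : ℚ) (a : L), D (c • a) = c • D a) ∧
    (∀ a b, D ⁅a, b⁆ = ⁅D a, b⁆ + ⁅a, D b⁆) ∧ D x = 0 ∧ D y = ⁅y, ψ⁆

/-- `χ` is the Ihara bracket `{ψ, φ} = D_ψ φ - D_φ ψ + [ψ, φ]`. -/
def IsBr (ψ φ χ : L) : Prop :=
  ∃ D E : L → L, IsD ψ D ∧ IsD φ E ∧ χ = D φ - E ψ + ⁅ψ, φ⁆

/-- The free Lie algebra over `ℚ` on the letters `e k`, `k = 0, 1, 2, …`. -/
abbrev F : Type := FreeLieAlgebra ℚ ℕ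

/-- The weight `n` part of `F`, where `e k` has weight `2 k + 3`. -/
def Fpart (n : ℕ) : Submodule ℚ F := wtPart (fun k => 2 * k + 3) n

/-- `f` is an isomorphism of graded Lie algebras from `F` onto `W` with the Ihara bracket. -/
def IsIso (f : F → L) : Prop :=
  (∀ a b, f (a + b) = f a + f b) ∧ (∀ (c : ℚ) (a : F), f (c • a) = c • f a) ∧
    (∀ a b, IsBr (f a) (f b) (f ⁅a, b⁆)) ∧ Function.Injective f ∧
    (∀ ψ, IsW ψ ↔ ∃ a, f a = ψ) ∧ ∀ n ψ, IsWn n ψ ↔ ∃ a ∈ Fpart n, f a = ψ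

end Vale.Agent.P029.Stmt
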