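import Mathlib.Algebra.DualNumber
import Mathlib.Algebra.GroupWithZero.Action.Pointwise.Finset
import Mathlib.Algebra.Lie.BaseChange
import Mathlib.Algebra.Lie.Derivation.Basic
import Mathlib.Algebra.Lie.Free
import Mathlib.Algebra.Lie.Quotient
import Mathlib.Algebra.Module.StablyFree.Basic
import Mathlib.Algebra.Order.Ring.Star
import Mathlib.Algebra.Order.Star.Real
import Mathlib.Algebra.Ring.Action.Pointwise.Finset
import Mathlib.Algebra.Ring.IsFormallyReal
import Mathlib.Algebra.RingQuot
import Mathlib.Analysis.CStarAlgebra.Classes
import Mathlib.Analysis.ODE.Gronwall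
import Mathlib.Analysis.SpecialFunctions.Integrals.Basic
import Mathlib.CategoryTheory.Countable
import Mathlib.Data.Finset.MulAntidiagonal
import Mathlib.Data.Int.Star
import Mathlib.Data.Rat.Star
import Mathlib.Data.Set.Finite.List
import Mathlib.LinearAlgebra.Eigenspace.Basic
import Mathlib.LinearAlgebra.FreeAlgebra
import Mathlib.MeasureTheory.Integral.CurveIntegral.Poincare
import Mathlib.Order.CompletePartialOrder
import Mathlib.RingTheory.Etale.Weakly
import Mathlib.RingTheory.Flat.TorsionFree
import Mathlib.RingTheory.Henselian
import Mathlib.RingTheory.PicardGroup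
import Mathlib.RingTheory.RegularLocalRing.Defs
import Mathlib.RingTheory.SimpleRing.Principal
import Mathlib.RingTheory.TotallySplit
import Mathlib.Tactic
import Mathlib.Topology.Instances.TrivSqZeroExt

/-! The part of Mathlib that the development of this folder uses. -/
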